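import Vale.Agent.P338.R3.H968.Cell
import Vale.Agent.P338.R3.H772.TopSpec

/-!
P338-D: loading and unloading. The product of two numbers from the cells of the product of their
polynomials: overlap of the halves of neighbouring cells, rounding, carries.
-/

namespace Vale.Agent.P338.R3.H50

open Finset
open Vale.Agent.P338.R3.H968
open Vale.Agent.P338.R3.H772 (lval)
open Vale.Agent.P338.R2.H778 (bits val)

/-! ### values of words, least significant bit first -/

theorem lval_append (x y : List Bool) : lval (x ++ y) = lval x + 2 ^ x.length * lval y := by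
  induction x with
  | nil => simp [lval]
  | cons a x ih =>
    simp only [List.cons_append, lval, ih, List.length_cons, pow_succ]
    ring

theorem lval_lt (x : List Bool) : lval x < 2 ^ x.length := by
  induction x with
  | nil => simp [lval]
  | cons a x ih =>
    simp only [lval, List.length_cons, pow_succ]
    have := Bool.toNat_le a
    omega

theorem lval_reverse_bits (w z : ℕ) : lval (bits w z).reverse = z % 2 ^ w := by
  induction w generalizing z with
  | zero => simp [bits, lval, Nat.mod_one]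
  | succ w ih =>
    rw [bits, List.reverse_append]
    simp only [List.reverse_cons, List.reverse_nil, List.nil_append, List.singleton_append, lval]
    rw [ih]
    have h1 : (decide (z % 2 = 1)).toNat = z % 2 := by
      rcases Nat.mod_two_eq_zero_or_one z with h | h <;> simp [h]
    rw [h1, pow_succ, mul_comm (2 ^ w) 2, Nat.mod_mul]

/-! ### release of a cell -/

theorem emit_spec (P : CPar) (hw : 1 ≤ P.w) (x : Cell) (D : ℕ → ℕ) (B : ℕ) (hB : 2 * B < 2 ^ P.b) :
    ∀ (n k c : ℕ), (∀ i < n, rnd P (x (k + i)) = (D (k + i) : ℤ)) → (∀ i < n, D (k + i) ≤ B) →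
      c ≤ B →
      (emit P x n k c).1.length = P.w * n ∧ (emit P x n k c).2 ≤ B ∧
        lval (emit P x n k c).1 + 2 ^ (P.w * n) * (emit P x n k c).2 =
          c + ∑ i ∈ range n, D (k + i) * 2 ^ (P.w * i) := by
  intro n
  induction n with
  | zero => intro k c _ _ hc; simp [emit, lval, hc]
  | succ n ih =>
    intro k c hD hDB hc
    have h0 := hD 0 (by omega)
    have h0B := hDB 0 (by omega)
    rw [add_zero] at h0 h0B
    have hr : (rnd P (x k) % 2 ^ P.b).toNat = D k := by
      rw [h0]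
      have h1 : ((D k : ℤ) % 2 ^ P.b) = D k := by
        apply Int.emod_eq_of_lt (by positivity)
        have : D k < 2 ^ P.b := by omega
        exact_mod_cast this
      rw [h1]; simp
    have hc' : (c + (rnd P (x k) % 2 ^ P.b).toNat) % 2 ^ P.b = c + D k := by
      rw [hr]
      exact Nat.mod_eq_of_lt (by omega)
    have h2 : 2 ≤ 2 ^ P.w := by
      calc 2 = 2 ^ 1 := by norm_num
        _ ≤ 2 ^ P.w := Nat.pow_le_pow_right (by norm_num) hw
    have hcB : (c + D k) / 2 ^ P.w ≤ B := by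
      calc (c + D k) / 2 ^ P.w ≤ (c + D k) / 2 := Nat.div_le_div_left h2 (by norm_num)
        _ ≤ B := by omega
    obtain ⟨i1, i2, i3⟩ := ih (k + 1) ((c + D k) / 2 ^ P.w)
      (fun i hi => by have := hD (i + 1) (by omega); rwa [show k + (i + 1) = k + 1 + i by ring] at this)
      (fun i hi => by have := hDB (i + 1) (by omega); rwa [show k + (i + 1) = k + 1 + i by ring] at this)
      hcB
    have e1 : emit P x (n + 1) k c = ((bits P.w (c + D k)).reverse ++
        (emit P x n (k + 1) ((c + D k) / 2 ^ P.w)).1,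
        (emit P x n (k + 1) ((c + D k) / 2 ^ P.w)).2) := by
      simp only [emit, hc']
    rw [e1]
    refine ⟨?_, i2, ?_⟩
    · simp only [List.length_append, List.length_reverse, Vale.Agent.P338.R2.H778.length_bits, i1]
      ring
    · simp only
      rw [lval_append, lval_reverse_bits, List.length_reverse,
        Vale.Agent.P338.R2.H778.length_bits]
      have e2 : (c + D k) % 2 ^ P.w + 2 ^ P.w * ((c + D k) / 2 ^ P.w) = c + D k :=
        Nat.mod_add_div _ _
      have e3 : ∑ i ∈ range (n + 1), D (k + i) * 2 ^ (P.w * i) =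
          D k + 2 ^ P.w * ∑ i ∈ range n, D (k + 1 + i) * 2 ^ (P.w * i) := by
        rw [Finset.sum_range_succ', add_comm, Finset.mul_sum]
        simp only [add_zero, mul_zero, pow_zero, mul_one]
        congr 1
        apply Finset.sum_congr rfl
        intro i _
        rw [show k + (i + 1) = k + 1 + i by ring, show P.w * (i + 1) = P.w * i + P.w by ring,
          pow_add]
        ring
      rw [e3, show P.w * (n + 1) = P.w * n + P.w by ring, pow_add]
      calc (c + D k) % 2 ^ P.w + 2 ^ P.w * lval (emit P x n (k + 1) ((c + D k) / 2 ^ P.w)).1 +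
            2 ^ (P.w * n) * 2 ^ P.w * (emit P x n (k + 1) ((c + D k) / 2 ^ P.w)).2
          = (c + D k) % 2 ^ P.w + 2 ^ P.w * (lval (emit P x n (k + 1) ((c + D k) / 2 ^ P.w)).1 +
            2 ^ (P.w * n) * (emit P x n (k + 1) ((c + D k) / 2 ^ P.w)).2) := by ring
        _ = (c + D k) % 2 ^ P.w + 2 ^ P.w * ((c + D k) / 2 ^ P.w +
              ∑ i ∈ range n, D (k + 1 + i) * 2 ^ (P.w * i)) := by rw [i3]
        _ = ((c + D k) % 2 ^ P.w + 2 ^ P.w * ((c + D k) / 2 ^ P.w)) +
              2 ^ P.w * ∑ i ∈ range n, D (k + 1 + i) * 2 ^ (P.w * i) := by ring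
        _ = _ := by rw [e2]; ring

/-- Release of the lower `Y` words of all cells of a list. -/
def emits (P : CPar) : List Cell → ℕ → List Bool × ℕ
  | [], c => ([], c)
  | x :: l, c =>
    let r := emit P x P.Y 0 c
    let r' := emits P l r.2
    (r.1 ++ r'.1, r'.2)

theorem emits_spec (P : CPar) (hw : 1 ≤ P.w) (D : ℕ → ℕ → ℕ) (B : ℕ) (hB : 2 * B < 2 ^ P.b)
    (C : ℕ → Cell) :
    ∀ (n k c : ℕ), (∀ u < n, ∀ i < P.Y, rnd P (C (k + u) i) = (D (k + u) i : ℤ)) →
      (∀ u < n, ∀ i < P.Y, D (k + u) i ≤ B) → c ≤ B →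
      (emits P ((List.range n).map fun u => C (k + u)) c).1.length = P.w * P.Y * n ∧
      (emits P ((List.range n).map fun u => C (k + u)) c).2 ≤ B ∧
      lval (emits P ((List.range n).map fun u => C (k + u)) c).1 +
        2 ^ (P.w * P.Y * n) * (emits P ((List.range n).map fun u => C (k + u)) c).2 =
        c + ∑ u ∈ range n, (∑ i ∈ range P.Y, D (k + u) i * 2 ^ (P.w * i)) * 2 ^ (P.w * P.Y * u) := by
  intro n
  induction n with
  | zero => intro k c _ _ hc; simp [emits, lval, hc]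
  | succ n ih =>
    intro k c hD hDB hc
    obtain ⟨j1, j2, j3⟩ := emit_spec P hw (C k) (D k) B hB P.Y 0 c
      (fun i hi => by simpa using hD 0 (by omega) i hi)
      (fun i hi => by simpa using hDB 0 (by omega) i hi) hc
    obtain ⟨i1, i2, i3⟩ := ih (k + 1) (emit P (C k) P.Y 0 c).2
      (fun u hu i hi => by
        have := hD (u + 1) (by omega) i hi; rwa [show k + (u + 1) = k + 1 + u by ring] at this)
      (fun u hu i hi => by
        have := hDB (u + 1) (by omega) i hi; rwa [show k + (u + 1) = k + 1 + u by ring] at this)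
      j2
    have e0 : (List.range (n + 1)).map (fun u => C (k + u)) =
        C k :: (List.range n).map fun u => C (k + 1 + u) := by
      rw [List.range_succ_eq_map, List.map_cons, List.map_map]
      simp only [add_zero, List.cons.injEq, true_and]
      apply List.map_congr_left
      intro u _
      simp only [Function.comp, Nat.succ_eq_add_one]
      congr 1; ring
    rw [e0]
    simp only [emits]
    refine ⟨?_, i2, ?_⟩
    · rw [List.length_append, j1, i1]; ring
    · rw [lval_append, j1]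
      have e3 : ∑ u ∈ range (n + 1), (∑ i ∈ range P.Y, D (k + u) i * 2 ^ (P.w * i)) *
          2 ^ (P.w * P.Y * u) = (∑ i ∈ range P.Y, D k i * 2 ^ (P.w * i)) +
          2 ^ (P.w * P.Y) * ∑ u ∈ range n, (∑ i ∈ range P.Y, D (k + 1 + u) i * 2 ^ (P.w * i)) *
          2 ^ (P.w * P.Y * u) := by
        rw [Finset.sum_range_succ', add_comm, Finset.mul_sum]
        simp only [add_zero, mul_zero, pow_zero, mul_one]
        congr 1
        apply Finset.sum_congr rfl
        intro u _
        rw [show k + (u + 1) = k + 1 + u by ring,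
          show P.w * P.Y * (u + 1) = P.w * P.Y * u + P.w * P.Y by ring, pow_add]
        ring
      rw [e3, show P.w * P.Y * (n + 1) = P.w * P.Y * n + P.w * P.Y by ring, pow_add]
      simp only [zero_add] at j3
      set F := (emits P ((List.range n).map fun u => C (k + 1 + u)) (emit P (C k) P.Y 0 c).2)
      calc lval (emit P (C k) P.Y 0 c).1 + 2 ^ (P.w * P.Y) * lval F.1 +
            2 ^ (P.w * P.Y * n) * 2 ^ (P.w * P.Y) * F.2
          = lval (emit P (C k) P.Y 0 c).1 + 2 ^ (P.w * P.Y) * (lval F.1 +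
            2 ^ (P.w * P.Y * n) * F.2) := by ring
        _ = lval (emit P (C k) P.Y 0 c).1 + 2 ^ (P.w * P.Y) * ((emit P (C k) P.Y 0 c).2 +
            ∑ u ∈ range n, (∑ i ∈ range P.Y, D (k + 1 + u) i * 2 ^ (P.w * i)) *
              2 ^ (P.w * P.Y * u)) := by rw [i3]
        _ = (lval (emit P (C k) P.Y 0 c).1 + 2 ^ (P.w * P.Y) * (emit P (C k) P.Y 0 c).2) +
            2 ^ (P.w * P.Y) * ∑ u ∈ range n, (∑ i ∈ range P.Y, D (k + 1 + u) i * 2 ^ (P.w * i)) *
              2 ^ (P.w * P.Y * u) := by ring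
        _ = _ := by rw [j3]; ring

/-! ### products of numbers with several digits -/

theorem conv_eval {R : Type*} [CommSemiring R] (A B : ℕ) (f g : ℕ → R) (hf : ∀ v, A ≤ v → f v = 0)
    (hg : ∀ v, B ≤ v → g v = 0) (t : R) :
    (∑ v ∈ range A, f v * t ^ v) * (∑ v ∈ range B, g v * t ^ v) =
      ∑ u ∈ range (A + B), (∑ v ∈ range (u + 1), f v * g (u - v)) * t ^ u := by
  classical
  set p : Polynomial R := ∑ v ∈ range A, Polynomial.C (f v) * Polynomial.X ^ v with hp
  set q : Polynomial R := ∑ v ∈ range B, Polynomial.C (g v) * Polynomial.X ^ v with hq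
  have cp : ∀ v, p.coeff v = f v := by
    intro v
    rw [hp, Polynomial.finsetSum_coeff]
    simp only [Polynomial.coeff_C_mul, Polynomial.coeff_X_pow, mul_ite, mul_one, mul_zero]
    rw [Finset.sum_ite_eq (range A) v f]
    split_ifs with h
    · rfl
    · exact (hf v (by simpa using h)).symm
  have cq : ∀ v, q.coeff v = g v := by
    intro v
    rw [hq, Polynomial.finsetSum_coeff]
    simp only [Polynomial.coeff_C_mul, Polynomial.coeff_X_pow, mul_ite, mul_one, mul_zero]
    rw [Finset.sum_ite_eq (range B) v g]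
    split_ifs with h
    · rfl
    · exact (hg v (by simpa using h)).symm
  have ep : p.eval t = ∑ v ∈ range A, f v * t ^ v := by
    rw [hp, Polynomial.eval_finsetSum]; simp
  have eq : q.eval t = ∑ v ∈ range B, g v * t ^ v := by
    rw [hq, Polynomial.eval_finsetSum]; simp
  have dp : p.natDegree ≤ A := by
    apply Polynomial.natDegree_sum_le_of_forall_le
    intro i hi
    exact le_trans (Polynomial.natDegree_C_mul_X_pow_le _ _) (Finset.mem_range.1 hi).le
  have dq : q.natDegree ≤ B := by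
    apply Polynomial.natDegree_sum_le_of_forall_le
    intro i hi
    exact le_trans (Polynomial.natDegree_C_mul_X_pow_le _ _) (Finset.mem_range.1 hi).le
  rw [← ep, ← eq, ← Polynomial.eval_mul]
  rw [Polynomial.eval_eq_sum_range' (n := A + B + 1)
    (lt_of_le_of_lt Polynomial.natDegree_mul_le (by omega)), Finset.sum_range_succ]
  have c0 : ∀ u, (p * q).coeff u = ∑ v ∈ range (u + 1), f v * g (u - v) := by
    intro u
    rw [Polynomial.coeff_mul, Finset.Nat.sum_antidiagonal_eq_sum_range_succ_mk]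
    apply Finset.sum_congr rfl
    intro v _
    rw [cp, cq]
  have c1 : (p * q).coeff (A + B) = 0 := by
    rw [c0]
    apply Finset.sum_eq_zero
    intro v _
    by_cases h : A ≤ v
    · rw [hf v h, zero_mul]
    · rw [hg (A + B - v) (by omega), mul_zero]
  rw [c1, zero_mul, add_zero]
  apply Finset.sum_congr rfl
  intro u _
  rw [c0]

/-- digit `k` of `x` in base `2 ^ w` -/
def dgt (w x k : ℕ) : ℕ := x / 2 ^ (w * k) % 2 ^ w

theorem sum_dgt (w x K : ℕ) : ∑ k ∈ range K, dgt w x k * (2 ^ w) ^ k = x % 2 ^ (w * K) := by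
  induction K with
  | zero => simp [Nat.mod_one]
  | succ K ih =>
    rw [Finset.sum_range_succ, ih, dgt, Nat.mul_succ, pow_add, Nat.mod_mul, ← pow_mul]
    ring

/-- digit `i` of the block `v` of `Y` digits of `x` -/
def blk (w Y x v i : ℕ) : ℕ := if i < Y then dgt w x (Y * v + i) else 0

theorem blk_of_ge {w Y x v i : ℕ} (h : Y ≤ i) : blk w Y x v i = 0 := by
  rw [blk, if_neg (by omega)]

theorem dgt_lt (w x k : ℕ) : dgt w x k < 2 ^ w := Nat.mod_lt _ (by positivity)

theorem dgt_of_lt {w x k K : ℕ} (hx : x < 2 ^ (w * K)) (h : K ≤ k) : dgt w x k = 0 := by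
  rw [dgt, Nat.div_eq_of_lt (lt_of_lt_of_le hx (Nat.pow_le_pow_right (by norm_num)
    (Nat.mul_le_mul_left _ h))), Nat.zero_mod]

theorem blk_of_lt {w Y x v i M : ℕ} (hx : x < 2 ^ (w * Y * M)) (h : M ≤ v) :
    blk w Y x v i = 0 := by
  rw [blk]
  split_ifs with hi
  · apply dgt_of_lt (K := Y * M) (by rwa [← mul_assoc])
    calc Y * M ≤ Y * v := Nat.mul_le_mul_left _ h
      _ ≤ Y * v + i := by omega
  · rfl

theorem blk_lt (w Y x v i : ℕ) : blk w Y x v i < 2 ^ w := by
  rw [blk]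
  split_ifs
  · exact dgt_lt _ _ _
  · positivity

theorem sum_blk (w Y x M : ℕ) (hx : x < 2 ^ (w * Y * M)) :
    ∑ v ∈ range M, (∑ i ∈ range Y, blk w Y x v i * (2 ^ w) ^ i) * (2 ^ (w * Y)) ^ v = x := by
  have h1 : ∀ N, ∑ v ∈ range N, (∑ i ∈ range Y, blk w Y x v i * (2 ^ w) ^ i) * (2 ^ (w * Y)) ^ v =
      ∑ k ∈ range (Y * N), dgt w x k * (2 ^ w) ^ k := by
    intro N
    induction N with
    | zero => simp
    | succ N ih =>
      rw [Finset.sum_range_succ, ih, Nat.mul_succ, Finset.sum_range_add, Finset.sum_mul]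
      congr 1
      apply Finset.sum_congr rfl
      intro i hi
      rw [blk, if_pos (Finset.mem_range.1 hi), pow_add (2 ^ w) (Y * N) i, ← pow_mul, ← pow_mul,
        ← pow_mul, show w * Y * N = w * (Y * N) by ring]
      ring
  rw [h1, sum_dgt, Nat.mod_eq_of_lt (by rwa [← mul_assoc])]

/-- word `j` of the cell `u` of the product of the polynomials of `x` and `y` -/
def prodW (w Y x y u j : ℕ) : ℕ :=
  ∑ v ∈ range (u + 1), ∑ i ∈ range (j + 1), blk w Y x v i * blk w Y y (u - v) (j - i)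

/-- the words after the overlap -/
def ovW (w Y x y u i : ℕ) : ℕ :=
  prodW w Y x y u i + if u = 0 then 0 else prodW w Y x y (u - 1) (i + Y)

theorem sum_ovW (w Y x y M M1 M2 : ℕ) (hM : M1 + M2 ≤ M) (hx : x < 2 ^ (w * Y * M1))
    (hy : y < 2 ^ (w * Y * M2)) :
    ∑ u ∈ range M, (∑ i ∈ range Y, ovW w Y x y u i * 2 ^ (w * i)) * 2 ^ (w * Y * u) = x * y := by
  have hzero : ∀ u j, M1 + M2 ≤ u + 1 → prodW w Y x y u j = 0 := by
    intro u j hu
    apply Finset.sum_eq_zero
    intro v hv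
    apply Finset.sum_eq_zero
    intro i _
    by_cases h : M1 ≤ v
    · rw [blk_of_lt hx h, zero_mul]
    · rw [blk_of_lt (v := u - v) hy (by omega), mul_zero]
  have h1 : x * y = ∑ u ∈ range (M1 + M2), (∑ j ∈ range (Y + Y), prodW w Y x y u j *
      (2 ^ w) ^ j) * (2 ^ (w * Y)) ^ u := by
    conv_lhs => rw [← sum_blk w Y x M1 hx, ← sum_blk w Y y M2 hy]
    rw [conv_eval M1 M2 (fun v => ∑ i ∈ range Y, blk w Y x v i * (2 ^ w) ^ i)
      (fun v => ∑ i ∈ range Y, blk w Y y v i * (2 ^ w) ^ i)]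
    · apply Finset.sum_congr rfl
      intro u _
      congr 1
      rw [Finset.sum_congr rfl fun v _ => conv_eval Y Y (blk w Y x v) (blk w Y y (u - v))
        (fun i hi => blk_of_ge hi) (fun i hi => blk_of_ge hi) (2 ^ w), Finset.sum_comm]
      apply Finset.sum_congr rfl
      intro j _
      rw [prodW, Finset.sum_mul]
    · intro v hv
      exact Finset.sum_eq_zero fun i _ => by rw [blk_of_lt hx hv, zero_mul]
    · intro v hv
      exact Finset.sum_eq_zero fun i _ => by rw [blk_of_lt hy hv, zero_mul]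
  have h2 : ∑ u ∈ range (M1 + M2), (∑ j ∈ range (Y + Y), prodW w Y x y u j *
      (2 ^ w) ^ j) * (2 ^ (w * Y)) ^ u = ∑ u ∈ range M, (∑ j ∈ range (Y + Y), prodW w Y x y u j *
      (2 ^ w) ^ j) * (2 ^ (w * Y)) ^ u := by
    apply Finset.sum_subset (by intro a ha; simp only [Finset.mem_range] at *; omega)
    intro u _ hu
    rw [Finset.mem_range, not_lt] at hu
    rw [Finset.sum_eq_zero fun j _ => by rw [hzero u j (by omega), zero_mul], zero_mul]
  rw [h1, h2]
  have h3 : ∀ N, ∑ u ∈ range N, (∑ j ∈ range (Y + Y), prodW w Y x y u j * (2 ^ w) ^ j) *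
      (2 ^ (w * Y)) ^ u = ∑ u ∈ range N, (∑ i ∈ range Y, ovW w Y x y u i * 2 ^ (w * i)) *
      2 ^ (w * Y * u) + (if N = 0 then 0 else ∑ i ∈ range Y, prodW w Y x y (N - 1) (i + Y) *
      2 ^ (w * i)) * 2 ^ (w * Y * N) := by
    intro N
    induction N with
    | zero => simp
    | succ N ih =>
      rw [Finset.sum_range_succ, ih, Finset.sum_range_succ _ N, add_assoc, add_assoc]
      congr 1
      rw [if_neg (Nat.succ_ne_zero N), Nat.add_sub_cancel, Finset.sum_range_add]
      have e1 : ∀ i, (2 ^ w) ^ i = 2 ^ (w * i) := fun i => (pow_mul 2 w i).symm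
      have e2 : (2 ^ (w * Y)) ^ N = 2 ^ (w * Y * N) := (pow_mul 2 (w * Y) N).symm
      simp only [e1, e2]
      have e3 : 2 ^ (w * Y * (N + 1)) = 2 ^ (w * Y * N) * 2 ^ (w * Y) := by
        rw [← pow_add]; congr 1
      have e4 : ∑ i ∈ range Y, prodW w Y x y N (Y + i) * 2 ^ (w * (Y + i)) =
          (∑ i ∈ range Y, prodW w Y x y N (i + Y) * 2 ^ (w * i)) * 2 ^ (w * Y) := by
        rw [Finset.sum_mul]
        apply Finset.sum_congr rfl
        intro i _
        rw [add_comm Y i, mul_assoc, ← pow_add]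
        congr 2; ring
      rw [e3, e4]
      have e5 : ∑ i ∈ range Y, ovW w Y x y N i * 2 ^ (w * i) =
          ∑ i ∈ range Y, prodW w Y x y N i * 2 ^ (w * i) + (if N = 0 then 0 else
          ∑ i ∈ range Y, prodW w Y x y (N - 1) (i + Y) * 2 ^ (w * i)) := by
        simp only [ovW, add_mul, Finset.sum_add_distrib]
        congr 1
        split_ifs <;> simp
      rw [e5]
      ring
  rw [h3 M]
  have h4 : (if M = 0 then 0 else ∑ i ∈ range Y, prodW w Y x y (M - 1) (i + Y) *
      2 ^ (w * i)) = 0 := by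
    split_ifs with h
    · rfl
    · exact Finset.sum_eq_zero fun i _ => by rw [hzero _ _ (by omega), zero_mul]
  rw [h4, zero_mul, add_zero]

/-- a product over the cyclic group without wrap-around, in any semiring -/
theorem cyc_eq {R : Type*} [NonUnitalNonAssocSemiring R] {M M1 M2 : ℕ} (hM : M1 + M2 ≤ M + 1)
    (f g : ℕ → R) (hf : ∀ v, M1 ≤ v → f v = 0) (hg : ∀ v, M2 ≤ v → g v = 0) {u : ℕ} (hu : u < M) :
    ∑ v ∈ range M, f v * g ((u + M - v) % M) = ∑ v ∈ range (u + 1), f v * g (u - v) := by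
  symm
  rw [← Finset.sum_subset (Finset.range_mono (show u + 1 ≤ M by omega))]
  · apply Finset.sum_congr rfl
    intro v hv
    rw [Finset.mem_range] at hv
    rw [show u + M - v = u - v + M by omega, Nat.add_mod_right, Nat.mod_eq_of_lt (by omega)]
  · intro v hv hv'
    rw [Finset.mem_range] at hv hv'
    rw [show (u + M - v) % M = u + M - v from Nat.mod_eq_of_lt (by omega)]
    by_cases h : M1 ≤ v
    · rw [hf v h, zero_mul]
    · rw [hg (u + M - v) (by omega), mul_zero]

theorem cyc_eq_zmod {R : Type*} [NonUnitalNonAssocSemiring R] {M M1 M2 : ℕ} [NeZero M]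
    (hM : M1 + M2 ≤ M + 1) (f g : ℕ → R) (hf : ∀ v, M1 ≤ v → f v = 0) (hg : ∀ v, M2 ≤ v → g v = 0)
    (u : ZMod M) :
    ∑ v : ZMod M, f v.val * g (u - v).val = ∑ v ∈ range (u.val + 1), f v * g (u.val - v) := by
  rw [← cyc_eq hM f g hf hg (ZMod.val_lt u)]
  refine Finset.sum_bij' (fun v _ => v.val) (fun v _ => (v : ZMod M)) ?_ ?_ ?_ ?_ ?_
  · intro v _; exact Finset.mem_range.2 (ZMod.val_lt v)
  · intro v _; exact Finset.mem_univ _
  · intro v _; exact ZMod.natCast_zmod_val v
  · intro v hv; exact ZMod.val_cast_of_lt (Finset.mem_range.1 hv)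
  · intro v _
    congr 2
    have h1 := ZMod.val_lt v
    have h2 : (u - v : ZMod M) = ((u.val + M - v.val : ℕ) : ZMod M) := by
      rw [Nat.cast_sub (by omega), Nat.cast_add, ZMod.natCast_self, add_zero,
        ZMod.natCast_zmod_val, ZMod.natCast_zmod_val]
    rw [h2, ZMod.val_natCast]

/-- The words of the product cells as a cyclic convolution of the cell polynomials. -/
theorem prodW_cyc (w Y x y j : ℕ) {M M1 M2 : ℕ} [NeZero M] (hM : M1 + M2 ≤ M + 1)
    (hx : x < 2 ^ (w * Y * M1)) (hy : y < 2 ^ (w * Y * M2)) (u : ZMod M) :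
    ∑ v : ZMod M, ∑ i ∈ range (j + 1), blk w Y x v.val i * blk w Y y (u - v).val (j - i) =
      prodW w Y x y u.val j := by
  rw [prodW, Finset.sum_comm, Finset.sum_comm (s := range (u.val + 1))]
  apply Finset.sum_congr rfl
  intro i _
  exact cyc_eq_zmod hM (fun v => blk w Y x v i) (fun v => blk w Y y v (j - i))
    (fun v hv => blk_of_lt hx hv) (fun v hv => blk_of_lt hy hv) u

/-! ### bounds -/

theorem prodW_le (w Y x y u j M M1 : ℕ) (hx : x < 2 ^ (w * Y * M1)) (hM : M1 ≤ M) :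
    prodW w Y x y u j ≤ M * Y * 2 ^ (2 * w) := by
  have h0 : ∀ v i, blk w Y x v i * blk w Y y (u - v) (j - i) ≤
      if v < M ∧ i < Y then 2 ^ (2 * w) else 0 := by
    intro v i
    split_ifs with h
    · rw [two_mul, pow_add]
      exact Nat.mul_le_mul (blk_lt _ _ _ _ _).le (blk_lt _ _ _ _ _).le
    · rw [not_and_or] at h
      rcases h with h | h
      · rw [blk_of_lt hx (by omega), zero_mul]
      · rw [blk_of_ge (by omega), zero_mul]
  calc prodW w Y x y u j ≤ ∑ v ∈ range (u + 1), ∑ i ∈ range (j + 1),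
        if v < M ∧ i < Y then 2 ^ (2 * w) else 0 :=
        Finset.sum_le_sum fun v _ => Finset.sum_le_sum fun i _ => h0 v i
    _ ≤ ∑ v ∈ range (u + 1 + M), ∑ i ∈ range (j + 1 + Y),
        if v < M ∧ i < Y then 2 ^ (2 * w) else 0 := by
        refine le_trans (Finset.sum_le_sum fun v _ => ?_) (Finset.sum_le_sum_of_subset ?_)
        · exact Finset.sum_le_sum_of_subset (Finset.range_mono (by omega))
        · exact Finset.range_mono (by omega)
    _ = ∑ v ∈ range M, ∑ i ∈ range Y, 2 ^ (2 * w) := by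
        symm
        rw [← Finset.sum_subset (Finset.range_mono (show M ≤ u + 1 + M by omega))]
        · apply Finset.sum_congr rfl
          intro v hv
          rw [← Finset.sum_subset (Finset.range_mono (show Y ≤ j + 1 + Y by omega))]
          · apply Finset.sum_congr rfl
            intro i hi
            rw [if_pos ⟨Finset.mem_range.1 hv, Finset.mem_range.1 hi⟩]
          · intro i _ hi
            rw [if_neg]
            intro h
            exact hi (Finset.mem_range.2 h.2)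
        · intro v _ hv
          apply Finset.sum_eq_zero
          intro i _
          rw [if_neg]
          intro h
          exact hv (Finset.mem_range.2 h.1)
    _ = M * Y * 2 ^ (2 * w) := by simp [mul_assoc]

/-- `sg` only depends on the residue and is the identity on small numbers. -/
theorem sg_eq {b : ℕ} {z a : ℤ} (hb : 1 ≤ b) (h : z ≡ a [ZMOD 2 ^ b]) (h1 : -2 ^ (b - 1) ≤ a)
    (h2 : a < 2 ^ (b - 1)) : sg b z = a := by
  obtain ⟨c, rfl⟩ : ∃ c, b = c + 1 := ⟨b - 1, by omega⟩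
  rw [Nat.add_sub_cancel] at h1 h2
  have h3 : ((2 ^ (c + 1) : ℕ) : ℤ) = 2 * 2 ^ c := by push_cast; ring
  have h4 : sg (c + 1) z = sg (c + 1) a := by
    unfold sg
    rw [← Int.emod_bmod, ← Int.emod_bmod (x := a)]
    congr 1
  rw [h4, sg]
  have hp : (0 : ℤ) < 2 ^ c := by positivity
  apply Int.bmod_eq_of_le_mul_two <;> rw [h3] <;> omega

theorem sg_modEq (b : ℕ) (z : ℤ) : sg b z ≡ z [ZMOD 2 ^ b] := by
  have h := Int.bmod_emod (x := z) (m := 2 ^ b)
  rw [show ((2 ^ b : ℕ) : ℤ) = 2 ^ b by push_cast; rfl] at h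
  exact h

/-- The overlap of the halves of neighbouring cells. -/
def ovl (P : CPar) (C : ℕ → Cell) (u : ℕ) : Cell :=
  cAdd (cLo P (C u)) (if u = 0 then fun _ => 0 else cHi P (C (u - 1)))

theorem rnd_ovl (P : CPar) (hP : P.Ok) (C : ℕ → Cell) (Z : ℕ → ℕ → ℕ) (e : ℤ)
    (he : 2 * e < 2 ^ (P.s - 1)) (B : ℕ) (hB : B * 2 ^ (P.s + 2) ≤ 2 ^ P.b) (u i : ℕ) (hi : i < P.Y)
    (hC : ∀ v ≤ u, ∀ j < 2 * P.Y, |sg P.b (C v j) - 2 ^ P.s * (Z v j : ℤ)| ≤ e)
    (hD : Z u i + (if u = 0 then 0 else Z (u - 1) (i + P.Y)) < B) :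
    rnd P (ovl P C u i) = ((Z u i + if u = 0 then 0 else Z (u - 1) (i + P.Y) : ℕ) : ℤ) := by
  have hs := hP.hs
  have hb := hP.hb
  obtain ⟨a1, ha1⟩ : ∃ a1, a1 = sg P.b (C u i) := ⟨_, rfl⟩
  have c1 := abs_le.1 (hC u le_rfl i (by omega))
  rw [← ha1] at c1
  have m1 : C u i ≡ a1 [ZMOD 2 ^ P.b] := by rw [ha1]; exact (sg_modEq _ _).symm
  have he0 : 0 ≤ e := le_trans (abs_nonneg _) (hC u le_rfl i (by omega))
  obtain ⟨a2, m2, c2⟩ : ∃ a2 : ℤ, (if u = 0 then fun _ => 0 else cHi P (C (u - 1)) : Cell) i ≡ a2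
      [ZMOD 2 ^ P.b] ∧ |a2 - 2 ^ P.s * ((if u = 0 then 0 else Z (u - 1) (i + P.Y) : ℕ) : ℤ)| ≤ e := by
    by_cases hu : u = 0
    · refine ⟨0, ?_, ?_⟩
      · simp [hu]
      · simp [hu, he0]
    · refine ⟨sg P.b (C (u - 1) (i + P.Y)), ?_, ?_⟩
      · rw [if_neg hu]
        have : cHi P (C (u - 1)) i = C (u - 1) (i + P.Y) := by rw [cHi, if_pos hi]
        rw [this]
        exact (sg_modEq _ _).symm
      · rw [if_neg hu]
        exact hC (u - 1) (by omega) (i + P.Y) (by omega)
  have c2' := abs_le.1 c2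
  set Dn : ℕ := Z u i + if u = 0 then 0 else Z (u - 1) (i + P.Y) with hDn
  have hDz : (Dn : ℤ) = (Z u i : ℤ) + ((if u = 0 then 0 else Z (u - 1) (i + P.Y) : ℕ) : ℤ) := by
    rw [hDn]; push_cast; ring
  have hmul : (2 : ℤ) ^ P.s * (Dn : ℤ) = 2 ^ P.s * (Z u i : ℤ) +
      2 ^ P.s * ((if u = 0 then 0 else Z (u - 1) (i + P.Y) : ℕ) : ℤ) := by rw [hDz]; ring
  have hps : (2 : ℤ) ^ P.s = 2 * 2 ^ (P.s - 1) := by
    rw [← pow_succ']; congr 1; omega
  have hpb : (2 : ℤ) ^ P.b = 2 * 2 ^ (P.b - 1) := by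
    rw [← pow_succ']; congr 1; omega
  have hps0 : (0 : ℤ) < 2 ^ (P.s - 1) := by positivity
  have hBz : (B : ℤ) * 2 ^ (P.s + 2) ≤ 2 ^ P.b := by exact_mod_cast hB
  have hBz' : (B : ℤ) * 2 ^ (P.s + 2) = 4 * (2 ^ P.s * (B : ℤ)) := by rw [pow_add]; ring
  have hDB : (2 : ℤ) ^ P.s * (Dn : ℤ) + 2 ^ P.s ≤ 2 ^ P.s * (B : ℤ) := by
    have h1 : (Dn : ℤ) + 1 ≤ (B : ℤ) := by exact_mod_cast hD
    calc (2 : ℤ) ^ P.s * (Dn : ℤ) + 2 ^ P.s = 2 ^ P.s * ((Dn : ℤ) + 1) := by ring
      _ ≤ _ := mul_le_mul_of_nonneg_left h1 (by positivity)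
  have hD0 : (0 : ℤ) ≤ 2 ^ P.s * (Dn : ℤ) := by positivity
  have hsg : sg P.b (ovl P C u i) = a1 + a2 := by
    apply sg_eq (by omega)
    · have : ovl P C u i = C u i + (if u = 0 then fun _ => 0 else cHi P (C (u - 1)) : Cell) i := by
        simp only [ovl, cAdd, cLo, if_pos hi]
      rw [this]
      exact Int.ModEq.add m1 m2
    · linarith [c1.1, c2'.1]
    · linarith [c1.2, c2'.2]
  rw [rnd, hsg]
  have hfin : a1 + a2 + 2 ^ (P.s - 1) = (Dn : ℤ) * 2 ^ P.s +
      (a1 + a2 + 2 ^ (P.s - 1) - 2 ^ P.s * (Dn : ℤ)) := by ring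
  rw [hfin, Int.add_comm, Int.add_mul_ediv_right _ _ (by positivity : (2 : ℤ) ^ P.s ≠ 0)]
  rw [Int.ediv_eq_zero_of_lt (by linarith [c1.1, c2'.1]) (by linarith [c1.2, c2'.2]), zero_add]

/-- **UNLOAD.** If the words of the cells are within `e` of `2 ^ s` times the coefficients of the
product, then the released bits are the product. -/
theorem unload_eq (P : CPar) (hP : P.Ok) (M M1 M2 x y : ℕ) (hM : M1 + M2 ≤ M)
    (hx : x < 2 ^ (P.w * P.Y * M1)) (hy : y < 2 ^ (P.w * P.Y * M2))
    (hbig : (2 * (M * P.Y * 2 ^ (2 * P.w)) + 1) * 2 ^ (P.s + 2) ≤ 2 ^ P.b) (C : ℕ → Cell) (e : ℤ)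
    (he : 2 * e < 2 ^ (P.s - 1))
    (hC : ∀ u < M, ∀ j < 2 * P.Y, |sg P.b (C u j) - 2 ^ P.s * (prodW P.w P.Y x y u j : ℤ)| ≤ e) :
    (emits P ((List.range M).map (ovl P C)) 0).1.length = P.w * P.Y * M ∧
      lval (emits P ((List.range M).map (ovl P C)) 0).1 = x * y := by
  set B : ℕ := 2 * (M * P.Y * 2 ^ (2 * P.w)) + 1 with hBdef
  have hb1 : ∀ u i, prodW P.w P.Y x y u i ≤ M * P.Y * 2 ^ (2 * P.w) := fun u i =>
    prodW_le P.w P.Y x y u i M M1 hx (by omega)
  have hb2 : ∀ u i, ovW P.w P.Y x y u i < B := by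
    intro u i
    rw [ovW]
    have h1 := hb1 u i
    split_ifs
    · omega
    · have h2 := hb1 (u - 1) (i + P.Y)
      omega
  have h4 : 2 * B < 2 ^ P.b := by
    have h5 : 2 ^ 3 ≤ 2 ^ (P.s + 2) := Nat.pow_le_pow_right (by norm_num) (by have := hP.hs; omega)
    have h6 : B * 2 ^ 3 ≤ B * 2 ^ (P.s + 2) := Nat.mul_le_mul_left _ h5
    have : 0 < B := by omega
    omega
  have h := emits_spec P hP.hw (fun u i => ovW P.w P.Y x y u i) B h4 (ovl P C) M 0 0
    (fun u hu i hi => by
      rw [zero_add]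
      have := rnd_ovl P hP C (fun u i => prodW P.w P.Y x y u i) e he B hbig u i hi
        (fun v hv j hj => hC v (by omega) j hj) (by simpa [ovW] using hb2 u i)
      simpa [ovW] using this)
    (fun u hu i hi => (hb2 _ _).le) (Nat.zero_le _)
  simp only [zero_add] at h
  obtain ⟨h1, -, h3⟩ := h
  refine ⟨h1, ?_⟩
  rw [sum_ovW P.w P.Y x y M M1 M2 hM hx hy] at h3
  set F := emits P ((List.range M).map (ovl P C)) 0 with hF
  have hlt : x * y < 2 ^ (P.w * P.Y * M) := by
    calc x * y < 2 ^ (P.w * P.Y * M1) * 2 ^ (P.w * P.Y * M2) :=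
          Nat.mul_lt_mul'' hx hy
      _ = 2 ^ (P.w * P.Y * (M1 + M2)) := by rw [← pow_add]; congr 1; ring
      _ ≤ _ := Nat.pow_le_pow_right (by norm_num) (Nat.mul_le_mul_left _ hM)
  have hF2 : F.2 = 0 := by
    by_contra hne
    have : 2 ^ (P.w * P.Y * M) * 1 ≤ 2 ^ (P.w * P.Y * M) * F.2 :=
      Nat.mul_le_mul_left _ (Nat.one_le_iff_ne_zero.2 hne)
    omega
  rw [hF2, mul_zero, add_zero] at h3
  exact h3

/-- The cell of a block. -/
theorem cLoad_blk (P : CPar) (x v : ℕ) :
    cLoad P (x / 2 ^ (P.w * P.Y * v) % 2 ^ (P.w * P.Y)) =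
      fun j => ((blk P.w P.Y x v j : ℕ) : ℤ) * 2 ^ P.s := by
  funext j
  rw [cLoad, blk]
  split_ifs with h
  · congr 2
    rw [dgt, Nat.mul_add, pow_add, ← Nat.div_div_eq_div_mul, ← mul_assoc]
    set z := x / 2 ^ (P.w * P.Y * v)
    have e1 : P.w * P.Y = P.w * j + (P.w * (P.Y - j)) := by
      rw [← mul_add]; congr 1; omega
    rw [e1, pow_add, Nat.mod_mul_right_div_self, Nat.mod_mod_of_dvd]
    exact pow_dvd_pow 2 (Nat.le_mul_of_pos_right _ (by omega))
  · simp

end Vale.Agent.P338.R3.H50
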