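import Vale.Agent.P338.R3.H50.MicroRun
import Vale.Agent.P338.R3.H527.ZMicro

/-!
P338-D, module MICRO (2): all passes of the list `micro`, the acts of the control multiply.
-/

namespace Vale.Agent.P338.R3.H50

open Vale.Agent.P338.R3.H968
open Vale.Agent.P338.R3.H898 (Act Ex)
open Vale.Agent.P338.R3.H282 (DC)
open Vale.Agent.P338.R3.H257 (blocks D0 nM Passes Num)
open Vale.Agent.P338.R3.H313 (KP GP PP fwP bkP ldv ulv nTp nUp insP PV Ctl.acts)
open Vale.Agent.P338.R3.H352 (Dc)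
open Vale.Agent.P338.R3.H772 (lval)

variable (cw : PV × DC Dc × ℕ → List Bool × List Bool) (p : PV)

theorem zetaOK (P : CPar) : ZetaOK cw p P := fun _ hn hJ D F =>
  ⟨H527.ex_zs_up KP cw ldv ulv P D (H527.best_good _) p hn hJ F,
    H527.ex_zs_dn KP cw ldv ulv P D (H527.best_good _) p hn hJ F⟩

theorem passes {P : CPar} (hs : 1 ≤ p.s) (hds : p.d ≤ p.s)
    (hW : ∀ c, ∀ u < 2 ^ KP p, (cw (p, c, u)).1.length = P.b ∧ (cw (p, c, u)).2.length = P.b) :
    Passes P (GP p) (2 ^ ((GP p).s - 1) * (GP p).N) (semP cw p P) (prS P) (stActs cw p)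
      (loadActs (GP p)) (prActs cw p) (unloadActs (GP p)) (fwP p) (bkP p) :=
  passes_of cw p hs hds (zetaOK cw p P) hW

/-- **The acts of the control multiply.** -/
theorem run_full {P : CPar} (hP : P.Ok) (hs : 1 ≤ p.s) (hds : p.d ≤ p.s)
    (hW : ∀ c, ∀ u < 2 ^ KP p, (cw (p, c, u)).1.length = P.b ∧ (cw (p, c, u)).2.length = P.b)
    (hN : Num P (GP p) (2 ^ ((GP p).s - 1) * (GP p).N) (semP cw p P) (prS P) (fwP p) (bkP p))
    (h4 : 4 ≤ P.s) (hbig : (2 * (nM (GP p) * P.Y * 2 ^ (2 * P.w)) + 1) * 2 ^ (P.s + 2) ≤ 2 ^ P.b)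
    (x y : List Bool) (hx : x.length = P.w * P.Y * (2 ^ (p.s - 1) * (GP p).N))
    (hy : y.length = P.w * P.Y * (2 ^ (p.s - 1) * (GP p).N)) :
    ∃ D2, Ex P (Ctl.acts nTp nUp (insP cw) p)
        (D0 (blocks (P.w * P.Y) (2 ^ (p.s - 1) * (GP p).N) x)
          (blocks (P.w * P.Y) (2 ^ (p.s - 1) * (GP p).N) y)) D2 ∧
      D2.out.length = 2 * (P.w * P.Y * (2 ^ (p.s - 1) * (GP p).N)) ∧
      lval D2.out = lval x * lval y :=
  run_of cw p hP hs hds (zetaOK cw p P) hW hN h4 hbig x y hx hy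

end Vale.Agent.P338.R3.H50
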