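import Vale.Agent.P338.R3.H50.Unl
import Vale.Agent.P338.R3.H898.Arr

/-!
P338-D: the loading pass and the unloading pass in the form of the array level (`atL`, `atR`).
-/

namespace Vale.Agent.P338.R3.H50

open Vale.Agent.P338.R2.H898 (Zip)
open Vale.Agent.P338.R3.H968
open Vale.Agent.P338.R3.H898
open Vale.Agent.P338.R3.H413 (unlF ldA ulA ldCell)
open Vale.Agent.P338.R3.H772 (lval)
open Vale.Agent.P338.R2.H778 (bits val)

/-! ### blocks of an operand -/

theorem val_reverse (x : List Bool) : val x.reverse = lval x := by
  induction x with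
  | nil => rfl
  | cons a x ih =>
    rw [List.reverse_cons, Vale.Agent.P338.R2.H778.val_append, ih,
      Vale.Agent.P338.R2.H778.val_singleton, lval, List.length_singleton]
    ring

theorem lval_drop (x : List Bool) (n : ℕ) : lval (x.drop n) = lval x / 2 ^ n := by
  induction n generalizing x with
  | zero => simp
  | succ n ih =>
    cases x with
    | nil => simp [lval]
    | cons a x =>
      rw [List.drop_succ_cons, ih, lval, pow_succ', ← Nat.div_div_eq_div_mul]
      congr 1
      have := Bool.toNat_le a
      omega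

theorem lval_take (x : List Bool) (n : ℕ) : lval (x.take n) = lval x % 2 ^ n := by
  rcases Nat.lt_or_ge x.length n with h | h
  · rw [List.take_of_length_le h.le, Nat.mod_eq_of_lt]
    exact (lval_lt x).trans_le (Nat.pow_le_pow_right (by norm_num) h.le)
  · have h1 : lval x = lval (x.take n) + 2 ^ n * lval (x.drop n) := by
      conv_lhs => rw [← List.take_append_drop n x, lval_append]
      rw [List.length_take_of_le h]
    rw [h1, Nat.add_mul_mod_self_left, Nat.mod_eq_of_lt]
    have := lval_lt (x.take n)
    rwa [List.length_take_of_le h] at this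

/-- The `M` blocks of `L` bits of an operand (least significant bit first); each block is written
with its most significant bit first. -/
def blks (L M : ℕ) (x : List Bool) : List (List Bool) :=
  (List.range M).map fun k => ((x.drop (L * k)).take L).reverse

@[simp] theorem length_blks (L M : ℕ) (x : List Bool) : (blks L M x).length = M := by simp [blks]

theorem flatMap_blks {L M : ℕ} {x : List Bool} (hx : x.length = L * M) :
    (blks L M x).flatMap List.reverse = x := by
  have h1 : ∀ n, (List.range n).flatMap (fun k => (x.drop (L * k)).take L) = x.take (L * n) := by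
    intro n
    induction n with
    | zero => simp
    | succ n ih =>
      rw [List.range_succ, List.flatMap_append, ih, List.flatMap_singleton, Nat.mul_succ,
        List.take_add]
  rw [blks, List.flatMap_map]
  simp only [List.reverse_reverse]
  rw [h1, ← hx, List.take_length]

theorem length_mem_blks {L M : ℕ} {x : List Bool} (hx : x.length = L * M) :
    ∀ w ∈ blks L M x, w.length = L := by
  intro w hw
  obtain ⟨k, hk, rfl⟩ := List.mem_map.1 hw
  rw [List.mem_range] at hk
  rw [List.length_reverse, List.length_take, List.length_drop, hx]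
  have : L * (k + 1) ≤ L * M := Nat.mul_le_mul_left _ hk
  rw [Nat.mul_succ] at this
  omega

theorem val_blks {L M k : ℕ} (x : List Bool) (hk : k < M) :
    val ((blks L M x).getD k []) = lval x / 2 ^ (L * k) % 2 ^ L := by
  rw [List.getD_eq_getElem?_getD, blks, List.getElem?_map, List.getElem?_range hk]
  simp only [Option.map_some, Option.getD_some]
  rw [val_reverse, lval_take, lval_drop]

/-! ### loading -/

theorem arr_ldCell {P : CPar} (sel : ℕ → Bool) (idx : ℕ → ℕ) (xs ys : List (List Bool)) (n : ℕ) :
    (List.range n).map (ldCell P sel idx xs ys) =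
      arr n (ldC P sel idx (fun k => xs.getD k []) fun k => ys.getD k []) := rfl

/-- **LOADING PASS.** -/
theorem ex_loadPass {P : CPar} (sel : ℕ → Bool) (idx : ℕ → ℕ) (N M1 : ℕ) (D : DS)
    (xs ys : List (List Bool)) (hX : D.X = ⟨[], []⟩) (hx : D.ix = xs) (hy : D.iy = ys)
    (hc : ((List.range N).filter sel).length = M1) (hxl : xs.length = M1) (hyl : ys.length = M1)
    (hix : ∀ u, u < N → sel u = true → ((List.range u).filter sel).length = idx u)
    (hwx : ∀ w ∈ xs, w.length = P.Y * P.w) (hwy : ∀ w ∈ ys, w.length = P.Y * P.w) :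
    Ex P ((List.range N).flatMap fun u => ldA (sel u)) D
      (atR { D with ix := [], iy := [], jx := xs.reverse ++ D.jx, jy := ys.reverse ++ D.jy } (4 * N)
        (ldC P sel idx (fun k => xs.getD k []) fun k => ys.getD k [])) := by
  have h := H413.ex_load (P := P) sel (List.range N) D [] xs ys hX hx hy (by omega) (by omega)
    hwx hwy
  rw [H413.loadL_flatten sel idx N xs ys hix (by omega) (by omega), hc, arr_ldCell,
    List.append_nil] at h
  have e1 : xs.drop M1 = [] := List.drop_eq_nil_of_le hxl.le
  have e2 : ys.drop M1 = [] := List.drop_eq_nil_of_le hyl.le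
  have e3 : xs.take M1 = xs := List.take_of_length_le hxl.le
  have e4 : ys.take M1 = ys := List.take_of_length_le hyl.le
  rw [e1, e2, e3, e4] at h
  exact h

/-! ### unloading -/

theorem arr_four (N : ℕ) (F : ℕ → Cell) :
    arr (4 * N) F =
      (List.range N).flatMap fun u => [F (4 * u + 0), F (4 * u + 1), F (4 * u + 2), F (4 * u + 3)] :=
  (H413.flatMap_four N F).symm

/-- **UNLOADING PASS.** -/
theorem ex_unloadPass {P : CPar} (v : ℕ → Bool) (pos : ℕ → ℕ) (N M : ℕ) (D : DS) (F : ℕ → Cell)
    (hf : (List.range N).filter v = (List.range M).map pos) (hacc : D.acc = 0) (hout : D.out = []) :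
    Ex P (aZeroB :: (List.range N).flatMap fun u => ulA (v u)) (atL D (4 * N) F)
      (atR { D with
        B := wait P (fun j => F (4 * pos j)) M :: D.B
        out := (emits P ((List.range M).map (ovl P fun j => F (4 * pos j))) 0).1
        acc := (emits P ((List.range M).map (ovl P fun j => F (4 * pos j))) 0).2 } (4 * N) F) := by
  refine .cons (.zeroB _) ?_
  have h := H413.ex_unload (P := P) v (List.range N)
    { (atL D (4 * N) F) with B := cZero :: D.B } (fun u e => F (4 * u + e)) [] [] cZero D.B
    (by rw [List.append_nil, ← arr_four]; rfl) rfl (by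
      simp only [atL, hacc]; positivity)
  rw [hf, List.map_map] at h
  have e1 : ((fun u => F (4 * u + 0)) ∘ pos : ℕ → Cell) = fun j => F (4 * pos j) := rfl
  rw [e1, ← arr_four, List.append_nil] at h
  have e2 : (atL D (4 * N) F).acc = 0 := hacc
  have e3 : (atL D (4 * N) F).out = [] := hout
  simp only [e2, e3, unlF_eq, List.nil_append] at h
  have e4 : ({ (atL D (4 * N) F) with B := cZero :: (atL D (4 * N) F).B } : DS) =
      { (atL D (4 * N) F) with B := cZero :: D.B, out := [], acc := 0 } := by
    rw [← e2, ← e3]; rfl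
  rw [e4]
  exact h

/-- **UNLOADING PASS**, with the value of the output. -/
theorem unload_pass {P : CPar} (hP : P.Ok) (v : ℕ → Bool) (pos : ℕ → ℕ) (N M M1 M2 x y : ℕ) (D : DS)
    (F : ℕ → Cell) (hf : (List.range N).filter v = (List.range M).map pos) (hacc : D.acc = 0)
    (hout : D.out = []) (hM : M1 + M2 ≤ M) (hx : x < 2 ^ (P.w * P.Y * M1))
    (hy : y < 2 ^ (P.w * P.Y * M2))
    (hbig : (2 * (M * P.Y * 2 ^ (2 * P.w)) + 1) * 2 ^ (P.s + 2) ≤ 2 ^ P.b) (e : ℤ)
    (he : 2 * e < 2 ^ (P.s - 1))
    (hC : ∀ u < M, ∀ j < 2 * P.Y,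
      |sg P.b (F (4 * pos u) j) - 2 ^ P.s * (prodW P.w P.Y x y u j : ℤ)| ≤ e) :
    ∃ (B' : Cell) (z : List Bool) (c : ℕ),
      Ex P (aZeroB :: (List.range N).flatMap fun u => ulA (v u)) (atL D (4 * N) F)
        (atR { D with B := B' :: D.B, out := z, acc := c } (4 * N) F) ∧
      z.length = P.w * P.Y * M ∧ lval z = x * y := by
  obtain ⟨h1, h2⟩ := unload_eq P hP M M1 M2 x y hM hx hy hbig (fun j => F (4 * pos j)) e he hC
  exact ⟨_, _, _, ex_unloadPass v pos N M D F hf hacc hout, h1, h2⟩

end Vale.Agent.P338.R3.H50
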