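import Vale.Agent.P338.R3.H257.Chain
import Vale.Agent.P338.R3.H413.IdxGeo
import Vale.Agent.P338.R3.H50.Pass
import Vale.Agent.P338.R3.H884.Pass

/-!
P338-D: the fields `load` and `unload` of helper257's `Passes`.
-/

namespace Vale.Agent.P338.R3.H50

open Vale.Agent.P338.R2.H898 (Zip)
open Vale.Agent.P338.R3.H968
open Vale.Agent.P338.R3.H898 (Act Ex Ex1 aL aR aZero aZeroB aLoadX aLoadY aUnl cZero)
open Vale.Agent.P338.R3.H282 (Geo)
open Vale.Agent.P338.R3.H257 (MArr cells blocks D0 D1 ldArr nP nM)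
open Vale.Agent.P338.R3.H413 (unlF ldA ulA ldCell vload gpos GOk)
open Vale.Agent.P338.R3.H772 (lval)
open Vale.Agent.P338.R2.H778 (bits val)

/-- An array as a function of the number of the cell. -/
def flat (F : MArr) (i : ℕ) : Cell := F (i / 4) (decide (i % 4 = 2 ∨ i % 4 = 3)) (decide (i % 2 = 1))

theorem flat_zero (F : MArr) (u : ℕ) : flat F (4 * u) = F u false false := by
  have h1 : 4 * u / 4 = u := by omega
  have h2 : 4 * u % 4 = 0 := by omega
  have h3 : 4 * u % 2 = 0 := by omega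
  simp [flat, h1, h2, h3]

theorem cells_eq (n : ℕ) (F : MArr) : cells n F = (List.range (4 * n)).map (flat F) := by
  rw [← H413.flatMap_four n (flat F), cells]
  apply List.flatMap_congr
  intro u _
  have h0 : 4 * u / 4 = u := by omega
  have h1 : (4 * u + 1) / 4 = u := by omega
  have h2 : (4 * u + 2) / 4 = u := by omega
  have h3 : (4 * u + 3) / 4 = u := by omega
  have e0 : 4 * u % 4 = 0 := by omega
  have e1 : (4 * u + 1) % 4 = 1 := by omega
  have e2 : (4 * u + 2) % 4 = 2 := by omega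
  have e3 : (4 * u + 3) % 4 = 3 := by omega
  have f0 : 4 * u % 2 = 0 := by omega
  have f1 : (4 * u + 1) % 2 = 1 := by omega
  have f2 : (4 * u + 2) % 2 = 0 := by omega
  have f3 : (4 * u + 3) % 2 = 1 := by omega
  simp [H257.quad, flat, h0, h1, h2, h3, e0, e1, e2, e3, f0, f1, f2, f3]

theorem nP_eq (G : Geo) : nP G = 2 ^ (G.a * G.d + G.s) := rfl

theorem blocks_eq (k m : ℕ) (x : List Bool) : blocks k m x = blks k m x := rfl

/-- the loaded array of helper413 and of helper257 -/
theorem flat_ldArr {P : CPar} {G : Geo} (h : GOk G) (hs : 1 ≤ G.s) (x y : List Bool) {i : ℕ}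
    (hi : i < 4 * nP G) :
    flat (ldArr P G (2 ^ (G.s - 1) * G.N) (lval x) (lval y)) i =
      ldCell P (vload G) G.idx (blks (P.w * P.Y) (2 ^ (G.s - 1) * G.N) x)
        (blks (P.w * P.Y) (2 ^ (G.s - 1) * G.N) y) i := by
  have hu : i / 4 < 2 ^ (G.a * G.d + G.s) := by rw [nP_eq] at hi; omega
  have hcond : (G.valid (i / 4) && decide (G.idx (i / 4) < 2 ^ (G.s - 1) * G.N)) =
      vload G (i / 4) := by
    rw [Bool.eq_iff_iff, H413.vload_iff hs hu]
    constructor
    · intro h1
      simp only [Bool.and_eq_true, decide_eq_true_eq] at h1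
      refine ⟨h1.1, ?_⟩
      rw [pow_add, mul_comm]
      exact (H413.idx_lt_geo h h1.1).1 h1.2
    · rintro ⟨h1, h2⟩
      simp only [Bool.and_eq_true, decide_eq_true_eq]
      refine ⟨h1, ?_⟩
      rw [pow_add, mul_comm] at h2
      exact (H413.idx_lt_geo h h1).2 h2
  unfold flat ldArr ldCell
  simp only [hcond]
  by_cases hv : vload G (i / 4) = true
  · have hidx : G.idx (i / 4) < 2 ^ (G.s - 1) * G.N := by
      rw [← hcond] at hv
      simp only [Bool.and_eq_true, decide_eq_true_eq] at hv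
      exact hv.2
    rw [val_blks x hidx, val_blks y hidx]
    have hcases : i % 4 = 0 ∨ i % 4 = 1 ∨ i % 4 = 2 ∨ i % 4 = 3 := by omega
    rcases hcases with h4 | h4 | h4 | h4
    · have h2 : i % 2 = 0 := by omega
      simp [h4, h2, hv]
    · have h2 : i % 2 = 1 := by omega
      simp [h4, h2, hv]
    · have h2 : i % 2 = 0 := by omega
      simp [h4, h2, hv]
    · have h2 : i % 2 = 1 := by omega
      simp [h4, h2, hv]
  · simp [hv]

/-- the acts of LOAD, with the rewind -/
def loadActs (G : Geo) : List Act :=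
  ((List.range (nP G)).flatMap fun u => ldA (vload G u)) ++ List.replicate (4 * nP G) aL

/-- the acts of UNLOAD -/
def unloadActs (G : Geo) : List Act :=
  aZeroB :: (List.range (nP G)).flatMap fun u => ulA (G.valid u)

/-- **The field `load`.** -/
theorem load_field {P : CPar} {G : Geo} (h : GOk G) (hs : 1 ≤ G.s) (x y : List Bool)
    (hx : x.length = P.w * P.Y * (2 ^ (G.s - 1) * G.N))
    (hy : y.length = P.w * P.Y * (2 ^ (G.s - 1) * G.N)) :
    Ex P (loadActs G)
      (D0 (blocks (P.w * P.Y) (2 ^ (G.s - 1) * G.N) x) (blocks (P.w * P.Y) (2 ^ (G.s - 1) * G.N) y))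
      (H257.atL (D1 (blocks (P.w * P.Y) (2 ^ (G.s - 1) * G.N) x)
        (blocks (P.w * P.Y) (2 ^ (G.s - 1) * G.N) y)) (nP G)
        (ldArr P G (2 ^ (G.s - 1) * G.N) (lval x) (lval y))) := by
  have h1 := ex_loadPass (P := P) (vload G) G.idx (nP G) (2 ^ (G.s - 1) * G.N)
    (D0 (blks (P.w * P.Y) (2 ^ (G.s - 1) * G.N) x) (blks (P.w * P.Y) (2 ^ (G.s - 1) * G.N) y))
    _ _ rfl rfl rfl (H413.length_vload h hs) (length_blks _ _ _) (length_blks _ _ _)
    (fun u hu hv => H413.count_vload h hs hu hv)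
    (fun w hw => by rw [length_mem_blks hx w hw, mul_comm])
    (fun w hw => by rw [length_mem_blks hy w hw, mul_comm])
  refine h1.append ?_
  have h2 := H898.ex_rewind P { (D0 (blks (P.w * P.Y) (2 ^ (G.s - 1) * G.N) x)
    (blks (P.w * P.Y) (2 ^ (G.s - 1) * G.N) y)) with
      ix := []
      iy := []
      jx := (blks (P.w * P.Y) (2 ^ (G.s - 1) * G.N) x).reverse ++ []
      jy := (blks (P.w * P.Y) (2 ^ (G.s - 1) * G.N) y).reverse ++ [] } (4 * nP G)
    (H898.ldC P (vload G) G.idx
      (fun k => (blks (P.w * P.Y) (2 ^ (G.s - 1) * G.N) x).getD k [])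
      fun k => (blks (P.w * P.Y) (2 ^ (G.s - 1) * G.N) y).getD k [])
  have h3 : H898.arr (4 * nP G) (H898.ldC P (vload G) G.idx
      (fun k => (blks (P.w * P.Y) (2 ^ (G.s - 1) * G.N) x).getD k [])
      fun k => (blks (P.w * P.Y) (2 ^ (G.s - 1) * G.N) y).getD k []) =
      cells (nP G) (ldArr P G (2 ^ (G.s - 1) * G.N) (lval x) (lval y)) := by
    rw [cells_eq, ← arr_ldCell]
    apply List.map_congr_left
    intro i hi
    exact (flat_ldArr h hs x y (List.mem_range.1 hi)).symm
  have h4 : H257.atL (D1 (blocks (P.w * P.Y) (2 ^ (G.s - 1) * G.N) x)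
        (blocks (P.w * P.Y) (2 ^ (G.s - 1) * G.N) y)) (nP G)
        (ldArr P G (2 ^ (G.s - 1) * G.N) (lval x) (lval y)) =
      H898.atL { (D0 (blks (P.w * P.Y) (2 ^ (G.s - 1) * G.N) x)
        (blks (P.w * P.Y) (2 ^ (G.s - 1) * G.N) y)) with
        ix := []
        iy := []
        jx := (blks (P.w * P.Y) (2 ^ (G.s - 1) * G.N) x).reverse ++ []
        jy := (blks (P.w * P.Y) (2 ^ (G.s - 1) * G.N) y).reverse ++ [] } (4 * nP G)
        (H898.ldC P (vload G) G.idx
          (fun k => (blks (P.w * P.Y) (2 ^ (G.s - 1) * G.N) x).getD k [])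
          fun k => (blks (P.w * P.Y) (2 ^ (G.s - 1) * G.N) y).getD k []) := by
    rw [H898.atL, h3, List.append_nil, List.append_nil]
    rfl
  rw [h4]
  exact h2

/-- **The field `unload`.** -/
theorem unload_field {P : CPar} {G : Geo} (h : GOk G) (D : DS) (F : MArr) (hacc : D.acc = 0)
    (hout : D.out = []) :
    ∃ (D' : DS) (C : ℕ → Cell),
      Ex P (unloadActs G) (H257.atL D (nP G) F) D' ∧
      (∀ v < nM G, ∃ u < nP G, G.valid u = true ∧ G.idx u = v ∧ C v = F u false false) ∧
      D'.out = (emits P ((List.range (nM G)).map (ovl P C)) 0).1 := by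
  have h1 := ex_unloadPass (P := P) G.valid (gpos G) (nP G) (nM G) D (flat F)
    (H413.filter_valid_pow h) hacc hout
  have h2 : H898.atL D (4 * nP G) (flat F) = H257.atL D (nP G) F := by
    rw [H898.atL, H257.atL, cells_eq]; rfl
  rw [h2] at h1
  refine ⟨_, fun j => flat F (4 * gpos G j), h1, fun v hv => ⟨gpos G v, ?_, ?_, ?_, ?_⟩, rfl⟩
  · exact (H413.gpos_lt_pow h).2 hv
  · exact H413.valid_gpos h v
  · exact H413.idx_gpos h v
  · exact flat_zero F _

/-- the acts in the form of counted instructions (helper884, helper313) -/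
theorem reps_evLoad (sel : ℕ → Bool) (u : ℕ) :
    H313.Ctl.reps (H884.evLoad sel u) = ldA (sel u) := by
  unfold H884.evLoad ldA
  cases sel u <;> rfl

theorem reps_evUnl (sel : ℕ → Bool) (u : ℕ) :
    H313.Ctl.reps (H884.evUnl sel u) = ulA (sel u) := by
  unfold H884.evUnl ulA
  cases sel u <;> rfl

theorem loadActs_eq (G : Geo) : loadActs G =
    ((List.range (nP G)).flatMap fun u => H313.Ctl.reps (H884.evLoad (vload G) u)) ++
      List.replicate (4 * nP G) aL := by
  simp only [reps_evLoad]; rfl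

theorem unloadActs_eq (G : Geo) : unloadActs G =
    aZeroB :: (List.range (nP G)).flatMap fun u => H313.Ctl.reps (H884.evUnl G.valid u) := by
  simp only [reps_evUnl]; rfl

end Vale.Agent.P338.R3.H50
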