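import Vale.Agent.P338.R3.H313.MicroDef
import Vale.Agent.P338.R3.H50.Fields
import Vale.Agent.P338.R3.H334.GlueSt

/-!
P338-D, module MICRO: execution of the passes of helper313's list `micro` (diagonal, product, load,
unload, rewind), the semantics of the steps, and the properties of the bit lists of the schedule.
-/

namespace Vale.Agent.P338.R3.H50

open Vale.Agent.P338.R2.H898 (Zip)
open Vale.Agent.P338.R3.H968
open Vale.Agent.P338.R3.H898 (Act Ex Ex1 aL aR aZero aZeroB aLoadX aLoadY aUnl aCmul aProd cZero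
  wv dgC prC cmRe cmIm cpRe cpIm)
open Vale.Agent.P338.R3.H282 (Geo St DC Ly)
open Vale.Agent.P338.R3.H257 (MArr cells blocks D0 D1 ldArr nP nM Passes Num chain)
open Vale.Agent.P338.R3.H413 (ldA ulA vload GOk)
open Vale.Agent.P338.R3.H313 (Mc len ev swM zs stM KP GP PP fwP bkP micro ldv ulv nTp nUp insP PV Ctl.reps
  Ctl.stepActs Ctl.acts)
open Vale.Agent.P338.R3.H352 (Dc lprog)
open Vale.Agent.P338.R3.H334 (mzSt cmZ prZ mulWord mulPoly wrap)
open Vale.Agent.P338.R3.H772 (lval)

/-! ### semantics -/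

theorem wrap_eq_sg (b : ℕ) (z : ℤ) : wrap b z = sg b z := by
  unfold wrap sg
  norm_num

theorem arr_flat (n : ℕ) (F : MArr) : H898.arr (4 * n) (flat F) = cells n F := (cells_eq n F).symm

theorem atL_flat (D : DS) (n : ℕ) (F : MArr) : H898.atL D (4 * n) (flat F) = H257.atL D n F := by
  rw [H898.atL, H257.atL, arr_flat]

/-- **The diagonal pass on quadruples.** -/
theorem dgC_flat (P : CPar) (W : ℕ → List Bool × List Bool) (F : MArr) :
    dgC P W (flat F) = flat fun u => cmZ P.b P.s (wv (W u).1, wv (W u).2) (F u) := by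
  funext i
  have hcases : i % 4 = 0 ∨ i % 4 = 1 ∨ i % 4 = 2 ∨ i % 4 = 3 := by omega
  rcases hcases with h | h | h | h
  · have h2 : i % 2 = 0 := by omega
    have h3 : (i + 1) / 4 = i / 4 := by omega
    have h4 : (i + 1) % 4 = 1 := by omega
    have h5 : (i + 1) % 2 = 1 := by omega
    funext j
    simp [dgC, flat, h, h2, h3, h4, h5, cmRe, cSub, cMulw, cmZ, mulWord, wrap_eq_sg]
  · have h2 : i % 2 = 1 := by omega
    have h3 : (i - 1) / 4 = i / 4 := by omega
    have h4 : (i - 1) % 4 = 0 := by omega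
    have h5 : (i - 1) % 2 = 0 := by omega
    funext j
    simp [dgC, flat, h, h2, h3, h4, h5, cmIm, cAdd, cMulw, cmZ, mulWord, wrap_eq_sg]
  · have h2 : i % 2 = 0 := by omega
    have h3 : (i + 1) / 4 = i / 4 := by omega
    have h4 : (i + 1) % 4 = 3 := by omega
    have h5 : (i + 1) % 2 = 1 := by omega
    funext j
    simp [dgC, flat, h, h2, h3, h4, h5, cmRe, cSub, cMulw, cmZ, mulWord, wrap_eq_sg]
  · have h2 : i % 2 = 1 := by omega
    have h3 : (i - 1) / 4 = i / 4 := by omega
    have h4 : (i - 1) % 4 = 2 := by omega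
    have h5 : (i - 1) % 2 = 0 := by omega
    funext j
    simp [dgC, flat, h, h2, h3, h4, h5, cmIm, cAdd, cMulw, cmZ, mulWord, wrap_eq_sg]

/-- **The product pass on quadruples.** -/
theorem prC_flat (P : CPar) (F : MArr) :
    prC P (flat F) = flat fun u => prZ P.b P.s (F u) := by
  funext i
  have hcases : i % 4 = 0 ∨ i % 4 = 1 ∨ i % 4 = 2 ∨ i % 4 = 3 := by omega
  rcases hcases with h | h | h | h
  · have h2 : i % 2 = 0 := by omega
    have a1 : (i + 1) / 4 = i / 4 := by omega
    have a2 : (i + 2) / 4 = i / 4 := by omega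
    have a3 : (i + 3) / 4 = i / 4 := by omega
    have b1 : (i + 1) % 4 = 1 := by omega
    have b2 : (i + 2) % 4 = 2 := by omega
    have b3 : (i + 3) % 4 = 3 := by omega
    have c1 : (i + 1) % 2 = 1 := by omega
    have c3 : (i + 3) % 2 = 1 := by omega
    funext j
    simp [prC, flat, h, h2, a1, a2, a3, b1, b2, b3, c1, c3, cpRe, cSub, cMulp, prZ, mulPoly,
      wrap_eq_sg]
  · have h2 : i % 2 = 1 := by omega
    have a1 : (i - 1) / 4 = i / 4 := by omega
    have a2 : (i + 1) / 4 = i / 4 := by omega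
    have a3 : (i + 2) / 4 = i / 4 := by omega
    have b1 : (i - 1) % 4 = 0 := by omega
    have b2 : (i + 1) % 4 = 2 := by omega
    have b3 : (i + 2) % 4 = 3 := by omega
    have c1 : (i - 1) % 2 = 0 := by omega
    have c2 : (i + 1) % 2 = 0 := by omega
    have c3 : (i + 2) % 2 = 1 := by omega
    funext j
    simp [prC, flat, h, h2, a1, a2, a3, b1, b2, b3, c1, c2, c3, cpIm, cAdd, cMulp, prZ, mulPoly,
      wrap_eq_sg]
  · funext j
    simp [prC, flat, h, prZ, cZero]
  · funext j
    simp [prC, flat, h, prZ, cZero]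

/-! ### the acts of the passes -/

variable (cw : PV × DC Dc × ℕ → List Bool × List Bool) (p : PV)

/-- The acts of a pass. -/
def pActs (m : Mc (DC Dc)) : List Act := Ctl.stepActs (len KP) (ev KP cw ldv ulv) p m

theorem reps_nil' : Ctl.reps ([] : List (ℕ × Act)) = [] := rfl

theorem reps_one (n : ℕ) (a : Act) : Ctl.reps [(n, a)] = List.replicate n a := by
  simp [Ctl.reps, H313.Ctl.rep]

theorem pActs_rew : pActs cw p .rew = List.replicate (4 * 2 ^ KP p) aL := by
  show (List.range 1).flatMap (fun u => Ctl.reps [(4 * 2 ^ KP p, aL)]) = _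
  simp [reps_one]

theorem pActs_zb : pActs cw p .zb = [aZeroB] := by
  show (List.range 1).flatMap (fun u => Ctl.reps [(1, aZeroB)]) = _
  simp [reps_one]

theorem pActs_dg (c : DC Dc) : pActs cw p (.dg c) =
    (List.range (2 ^ KP p)).flatMap fun u => Ctl.reps (H884.evDiag (fun u => cw (p, c, u)) u) := rfl

theorem pActs_prod : pActs cw p .prod =
    (List.range (2 ^ KP p)).flatMap fun u => Ctl.reps (H884.evProd u) := rfl

theorem pActs_load : pActs cw p .load =
    (List.range (2 ^ KP p)).flatMap fun u => ldA (ldv (p, u)) := by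
  show (List.range (2 ^ KP p)).flatMap (fun u => Ctl.reps (bif ldv (p, u) then
      [(1, (11, [], [])), (1, (13, [], [])), (1, (12, [], [])), (1, (13, [], []))]
      else [(4, (13, [], []))])) = _
  apply List.flatMap_congr
  intro u _
  unfold ldA
  cases ldv (p, u) <;> rfl

theorem pActs_unl : pActs cw p .unl =
    (List.range (2 ^ KP p)).flatMap fun u => ulA (ulv (p, u)) := by
  show (List.range (2 ^ KP p)).flatMap (fun u => Ctl.reps (bif ulv (p, u) then
      [(1, (14, [], [])), (3, H313.mvA true)] else [(4, H313.mvA true)])) = _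
  apply List.flatMap_congr
  intro u _
  unfold ulA
  cases ulv (p, u) <;> rfl

/-- The acts of a step of the schedule. -/
def stActs (st : St Dc) : List Act := (stM (PP p) (KP p) st).flatMap (pActs cw p)

/-- The acts of the product pass. -/
def prActs : List Act := [Mc.prod, Mc.rew].flatMap (pActs cw p)

theorem nP_GP : nP (GP p) = 2 ^ KP p := rfl

theorem ldv_eq (u : ℕ) : ldv (p, u) = vload (GP p) u := rfl

theorem ld_rew : [Mc.load, Mc.rew].flatMap (pActs cw p) = loadActs (GP p) := by
  rw [loadActs, nP_GP, List.flatMap_cons, List.flatMap_singleton, pActs_load, pActs_rew]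
  rfl

theorem zb_unl : [Mc.zb, Mc.unl].flatMap (pActs cw p) = unloadActs (GP p) := by
  rw [unloadActs, nP_GP, List.flatMap_cons, List.flatMap_singleton, pActs_zb, pActs_unl]
  rfl

/-- **All acts as the list of the chain.** -/
theorem acts_eq : Ctl.acts nTp nUp (insP cw) p =
    loadActs (GP p) ++ ((fwP p).flatMap (stActs cw p) ++ (prActs cw p ++
      ((bkP p).flatMap (stActs cw p) ++ unloadActs (GP p)))) := by
  rw [H313.acts_P, ← ld_rew cw p, ← zb_unl cw p]
  show (micro p).flatMap (pActs cw p) = _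
  rw [micro]
  simp only [List.flatMap_append, List.flatMap_assoc]
  rfl

/-! ### execution -/

/-- The constants of the machine. -/
def Cw (c : DC Dc) (u : ℕ) : ℤ × ℤ := (wv (cw (p, c, u)).1, wv (cw (p, c, u)).2)

/-- The semantics of the steps. -/
def semP (P : CPar) : St Dc → MArr → MArr := mzSt P.b P.s (Cw cw p)

/-- The semantics of the product. -/
def prS (P : CPar) : MArr → MArr := fun F u => prZ P.b P.s (F u)

theorem ex_dg {P : CPar} (c : DC Dc)
    (hW : ∀ u < 2 ^ KP p, (cw (p, c, u)).1.length = P.b ∧ (cw (p, c, u)).2.length = P.b) (D : DS)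
    (F : MArr) :
    Ex P (stActs cw p (.dg c)) (H257.atL D (nP (GP p)) F)
      (H257.atL D (nP (GP p)) (semP cw p P (.dg c) F)) := by
  have h := H884.ex_diag' (P := P) D (2 ^ KP p) (flat F) (fun u => cw (p, c, u)) hW
  rw [dgC_flat, atL_flat, atL_flat] at h
  have e : stActs cw p (.dg c) = ((List.range (2 ^ KP p)).flatMap fun u =>
      Ctl.reps (H884.evDiag (fun u => cw (p, c, u)) u)) ++ List.replicate (4 * 2 ^ KP p) aL := by
    rw [stActs, H313.stM, List.flatMap_cons, List.flatMap_singleton, pActs_rew, pActs_dg]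
  rw [e]
  exact h

theorem ex_pr {P : CPar} (D : DS) (F : MArr) :
    Ex P (prActs cw p) (H257.atL D (nP (GP p)) F) (H257.atL D (nP (GP p)) (prS P F)) := by
  have h := H884.ex_prod' (P := P) D (2 ^ KP p) (flat F)
  rw [prC_flat, atL_flat, atL_flat] at h
  have e : prActs cw p = ((List.range (2 ^ KP p)).flatMap fun u =>
      Ctl.reps (H884.evProd u)) ++ List.replicate (4 * 2 ^ KP p) aL := by
    rw [prActs, List.flatMap_cons, List.flatMap_singleton, pActs_rew, pActs_prod]
  rw [e]
  exact h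

theorem gok_GP : GOk (GP p) := fun _ _ => ⟨H501.Rad.sR_pos _ _, H501.Rad.sR_le _ _⟩

/-! ### the bit lists of the schedule -/

/-- The bit lists of a step have no repetitions and are below `K`. -/
def StN {δ : Type} (K : ℕ) : St δ → Prop
  | .dn J => J.Nodup ∧ ∀ b ∈ J, b < K
  | .up J => J.Nodup ∧ ∀ b ∈ J, b < K
  | .dg _ => True

section bits

variable {δ : Type} (G : Geo)

theorem bp_inj (t : ℕ) : Function.Injective (G.bp t) := by
  intro i j h
  unfold Geo.bp at h
  split_ifs at h with ht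
  · have ha : 0 < G.a := by omega
    exact Nat.eq_of_mul_eq_mul_left ha (by omega)
  · omega

theorem bp_lt (hds : G.d ≤ G.s) {t i : ℕ} (hi : i < G.d) : G.bp t i < G.a * G.d + G.s := by
  unfold Geo.bp
  split_ifs with ht
  · have : G.a * (i + 1) ≤ G.a * G.d := Nat.mul_le_mul_left _ hi
    rw [Nat.mul_succ] at this
    omega
  · omega

theorem stN_lk (hds : G.d ≤ G.s) {J : List ℕ} (hn : J.Nodup) (hJ : ∀ i ∈ J, i < G.d) (l : Ly δ) :
    StN (G.a * G.d + G.s) (G.lk J l) := by
  cases l with
  | dn t =>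
    refine ⟨hn.map (bp_inj G t), fun b hb => ?_⟩
    obtain ⟨i, hi, rfl⟩ := List.mem_map.1 hb
    exact bp_lt G hds (hJ i hi)
  | up t =>
    refine ⟨hn.map (bp_inj G t), fun b hb => ?_⟩
    obtain ⟨i, hi, rfl⟩ := List.mem_map.1 hb
    exact bp_lt G hds (hJ i hi)
  | dg c => trivial

theorem stN_W (hds : G.d ≤ G.s) {J : List ℕ} (hn : J.Nodup) (hJ : ∀ i ∈ J, i < G.d)
    (prog : List (Ly δ)) : ∀ st ∈ G.W prog J, StN (G.a * G.d + G.s) st := by
  intro st hst
  obtain ⟨l, _, rfl⟩ := List.mem_map.1 hst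
  exact stN_lk G hds hn hJ l

theorem nodup_posJ (q : ℕ) : (G.posJ q).Nodup ∧ ∀ i ∈ G.posJ q, i < G.d :=
  ⟨(List.nodup_range).filter _, fun i hi => by
    have := List.mem_filter.1 hi
    exact List.mem_range.1 this.1⟩

theorem nodup_grpJ (g : ℕ) : (G.grpJ g).Nodup ∧ ∀ i ∈ G.grpJ g, i < G.d :=
  ⟨(List.nodup_range).filter _, fun i hi => by
    have := List.mem_filter.1 hi
    exact List.mem_range.1 this.1⟩

theorem stN_stA (hds : G.d ≤ G.s) (prog : List (Ly δ)) (neg : Bool) (q : ℕ) :
    ∀ st ∈ G.stA prog neg q, StN (G.a * G.d + G.s) st := by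
  intro st hst
  have hW := stN_W G hds (nodup_posJ G q).1 (nodup_posJ G q).2 prog
  rcases List.mem_append.1 hst with h | h
  · exact hW st h
  · rcases List.mem_cons.1 h with h | h
    · rw [h]; trivial
    · exact hW st h

theorem stN_stB (hds : G.d ≤ G.s) (prog : List (Ly δ)) (neg : Bool) (g : ℕ) :
    ∀ st ∈ G.stB prog neg g, StN (G.a * G.d + G.s) st := by
  intro st hst
  have hW := stN_W G hds (nodup_grpJ G g).1 (nodup_grpJ G g).2 prog
  rcases List.mem_append.1 hst with h | h
  · exact hW st h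
  · rcases List.mem_cons.1 h with h | h
    · rw [h]; trivial
    · exact hW st h

theorem stN_sel {i : ℕ} (hi : i < G.s) :
    (∀ st ∈ (G.selF i : List (St δ)), StN (G.a * G.d + G.s) st) ∧
      ∀ st ∈ (G.selI i : List (St δ)), StN (G.a * G.d + G.s) st := by
  have h1 : ([G.a * G.d + i] : List ℕ).Nodup ∧ ∀ b ∈ [G.a * G.d + i], b < G.a * G.d + G.s := by
    refine ⟨List.nodup_singleton _, fun b hb => ?_⟩
    rw [List.mem_singleton] at hb
    omega
  constructor <;> intro st hst
  · simp only [Geo.selF, List.mem_cons, List.not_mem_nil, or_false] at hst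
    rcases hst with rfl | rfl | rfl | rfl
    · exact h1
    · trivial
    · exact h1
    · trivial
  · simp only [Geo.selI, List.mem_cons, List.not_mem_nil, or_false] at hst
    rcases hst with rfl | rfl | rfl | rfl
    · trivial
    · exact h1
    · trivial
    · exact h1

theorem stN_fwd (hds : G.d ≤ G.s) (prog : List (Ly δ)) :
    ∀ st ∈ G.fwd prog, StN (G.a * G.d + G.s) st := by
  intro st hst
  simp only [Geo.fwd, List.mem_append, List.mem_flatMap, List.mem_reverse, List.mem_range] at hst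
  rcases hst with ⟨i, hi, h⟩ | ⟨q, _, h⟩ | ⟨g, _, h⟩ | h
  · exact (stN_sel G hi).1 st h
  · exact stN_stA G hds prog _ q st h
  · exact stN_stB G hds prog _ g st h
  · exact stN_W G hds List.nodup_range (fun i hi => List.mem_range.1 hi) prog st h

theorem stN_bwd (hds : G.d ≤ G.s) (prog : List (Ly δ)) :
    ∀ st ∈ G.bwd prog, StN (G.a * G.d + G.s) st := by
  intro st hst
  simp only [Geo.bwd, List.mem_cons, List.mem_append, List.mem_flatMap, List.mem_range] at hst
  rcases hst with rfl | h | ⟨g, _, h⟩ | ⟨q, _, h⟩ | ⟨i, hi, h⟩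
  · trivial
  · exact stN_W G hds List.nodup_range (fun i hi => List.mem_range.1 hi) prog st h
  · exact stN_stB G hds prog _ g st h
  · exact stN_stA G hds prog _ q st h
  · exact (stN_sel G hi).2 st h

end bits

/-! ### the passes -/

/-- What is needed of the zeta passes (helper527). -/
def ZetaOK (P : CPar) : Prop :=
  ∀ (J : List ℕ), J.Nodup → (∀ b ∈ J, b < KP p) → ∀ (D : DS) (F : MArr),
    Ex P (stActs cw p (.up J)) (H257.atL D (nP (GP p)) F)
      (H257.atL D (nP (GP p)) (J.foldr H282.upF F)) ∧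
    Ex P (stActs cw p (.dn J)) (H257.atL D (nP (GP p)) F)
      (H257.atL D (nP (GP p)) (J.foldr H282.dnF F))

theorem passes_of {P : CPar} (hs : 1 ≤ p.s) (hds : p.d ≤ p.s) (hz : ZetaOK cw p P)
    (hW : ∀ c, ∀ u < 2 ^ KP p, (cw (p, c, u)).1.length = P.b ∧ (cw (p, c, u)).2.length = P.b) :
    Passes P (GP p) (2 ^ ((GP p).s - 1) * (GP p).N) (semP cw p P) (prS P) (stActs cw p)
      (loadActs (GP p)) (prActs cw p) (unloadActs (GP p)) (fwP p) (bkP p) where
  load x y hx hy := load_field (gok_GP p) hs x y hx hy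
  step st hst D F _ := by
    have hN : StN (KP p) st := by
      rcases List.mem_append.1 hst with h | h
      · exact stN_fwd (GP p) hds _ st h
      · exact stN_bwd (GP p) hds _ st h
    cases st with
    | dn J => exact (hz J hN.1 hN.2 D F).2
    | up J => exact (hz J hN.1 hN.2 D F).1
    | dg c => exact ex_dg cw p c (hW c) D F
  prod D F _ := ex_pr cw p D F
  unload D F _ hacc hout := unload_field (gok_GP p) D F hacc hout

theorem two_m (hs : 1 ≤ p.s) : 2 * (2 ^ ((GP p).s - 1) * (GP p).N) = nM (GP p) := by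
  rw [nM, ← mul_assoc, ← pow_succ']
  congr 2
  show p.s - 1 + 1 = p.s
  omega

/-- **The acts of the control multiply.** -/
theorem run_of {P : CPar} (hP : P.Ok) (hs : 1 ≤ p.s) (hds : p.d ≤ p.s) (hz : ZetaOK cw p P)
    (hW : ∀ c, ∀ u < 2 ^ KP p, (cw (p, c, u)).1.length = P.b ∧ (cw (p, c, u)).2.length = P.b)
    (hN : Num P (GP p) (2 ^ ((GP p).s - 1) * (GP p).N) (semP cw p P) (prS P) (fwP p) (bkP p))
    (h4 : 4 ≤ P.s) (hbig : (2 * (nM (GP p) * P.Y * 2 ^ (2 * P.w)) + 1) * 2 ^ (P.s + 2) ≤ 2 ^ P.b)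
    (x y : List Bool) (hx : x.length = P.w * P.Y * (2 ^ (p.s - 1) * (GP p).N))
    (hy : y.length = P.w * P.Y * (2 ^ (p.s - 1) * (GP p).N)) :
    ∃ D2, Ex P (Ctl.acts nTp nUp (insP cw) p)
        (D0 (blocks (P.w * P.Y) (2 ^ (p.s - 1) * (GP p).N) x)
          (blocks (P.w * P.Y) (2 ^ (p.s - 1) * (GP p).N) y)) D2 ∧
      D2.out.length = 2 * (P.w * P.Y * (2 ^ (p.s - 1) * (GP p).N)) ∧
      lval D2.out = lval x * lval y := by
  rw [acts_eq cw p]
  exact chain hP (passes_of cw p hs hds hz hW) hN (two_m p hs) h4 hbig x y hx hy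

end Vale.Agent.P338.R3.H50
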