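import Vale.Agent.P338.R3.H413.LoadEx
import Vale.Agent.P338.R3.H50.IO

/-!
P338-D: the loading and unloading loops (helper413) and the arithmetic of `IO` together.
-/

namespace Vale.Agent.P338.R3.H50

open Vale.Agent.P338.R3.H968
open Vale.Agent.P338.R3.H898
open Vale.Agent.P338.R3.H413 (unlF)
open Vale.Agent.P338.R3.H772 (lval)
open Vale.Agent.P338.R2.H778 (bits val)

/-- The upper half that waits in front of cell `k`. -/
def wait (P : CPar) (C : ℕ → Cell) (k : ℕ) : Cell := if k = 0 then cZero else cHi P (C (k - 1))

theorem unlF_shift (P : CPar) (C : ℕ → Cell) (n k a : ℕ) :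
    unlF P ((List.range n).map fun i => C (k + i)) (wait P C k) a =
      ((emits P ((List.range n).map fun i => ovl P C (k + i)) a).1, wait P C (k + n),
        (emits P ((List.range n).map fun i => ovl P C (k + i)) a).2) := by
  induction n generalizing k a with
  | zero => simp [unlF, emits]
  | succ n ih =>
    have e0 : ∀ {β : Type} (G : ℕ → β), (List.range (n + 1)).map (fun i => G (k + i)) =
        G k :: (List.range n).map fun i => G (k + 1 + i) := by
      intro β G
      rw [List.range_succ_eq_map, List.map_cons, List.map_map]
      simp only [add_zero, List.cons.injEq, true_and]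
      apply List.map_congr_left
      intro u _
      simp only [Function.comp, Nat.succ_eq_add_one]
      congr 1; ring
    rw [e0 C, e0 (ovl P C)]
    have h1 : cAdd (cLo P (C k)) (wait P C k) = ovl P C k := by
      rw [ovl, wait]
      split_ifs <;> rfl
    have h2 : cHi P (C k) = wait P C (k + 1) := by rw [wait, if_neg (Nat.succ_ne_zero k)]; rfl
    simp only [unlF, emits]
    rw [h1, h2, ih (k + 1)]
    simp only [Prod.mk.injEq, true_and, and_true]
    congr 1; ring

theorem unlF_eq (P : CPar) (C : ℕ → Cell) (n a : ℕ) :
    unlF P ((List.range n).map C) cZero a =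
      ((emits P ((List.range n).map (ovl P C)) a).1, wait P C n,
        (emits P ((List.range n).map (ovl P C)) a).2) := by
  have := unlF_shift P C n 0 a
  simpa [wait] using this

end Vale.Agent.P338.R3.H50
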